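import Vale.Agent.P293.NotPoly
import Vale.Agent.P293.Stable
import Vale.Agent.P293.Coord

namespace Vale.Agent.Results.P295.Counterexample

/-- A `1`-stable coordinate in five variables which is not a coordinate. -/
theorem result : ∃ f : MvPolynomial (Fin 5) ℂ,
    (∃ σ : MvPolynomial (Fin 6) ℂ ≃ₐ[ℂ] MvPolynomial (Fin 6) ℂ,
      σ (MvPolynomial.rename Fin.castSucc f) = MvPolynomial.X 0) ∧
    ¬ ∃ σ : MvPolynomial (Fin 5) ℂ ≃ₐ[ℂ] MvPolynomial (Fin 5) ℂ, σ f = MvPolynomial.X 0 := by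
  obtain ⟨φ⟩ := Vale.Agent.P293.AA_stable
  exact Vale.Agent.P293.stable_coord (n := 4) φ Vale.Agent.P293.AA_not_poly

end Vale.Agent.Results.P295.Counterexample
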